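import Vale.Agent.P073.Cone.Scalar

/-!
Bounds for one mollification on its level, and for the glued function.
-/

open Set Metric Filter MeasureTheory
open scoped ContDiff Topology ENNReal

set_option linter.unusedSectionVars false

namespace Vale.Agent.P073.Cone

open Vale.Agent.P073

variable {E : Type*} [NormedAddCommGroup E] [NormedSpace ℝ E] [FiniteDimensional ℝ E]
  [MeasurableSpace E] [BorelSpace E] (μ : Measure E) [μ.IsAddHaarMeasure]
  {Ω : Set E} {γ γ' : ℝ} {δ : E → ℝ}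

/-- The mollification on level `j`. -/
noncomputable def smoothAt (δ : E → ℝ) (u : E → ℝ) (a : ℕ → ℝ) (j : ℕ) : E → ℝ :=
  shiftAvg (mollMeasure μ) (levRadius δ (a j) j) u

variable {u : E → ℝ} {G : E → E →L[ℝ] ℝ} {a : ℕ → ℝ} {j : ℕ} {x : E}

theorem smoothAt_fderiv (hδ : IsRadius Ω γ δ) (hΩ : IsOpen Ω) (hu : ContinuousOn u Ω)
    (hG : LocallyIntegrable G μ) (hw : WeakGrad μ Ω u G)
    (hr : IsRadius Ω γ' (levRadius δ (a j) j)) (hx : x ∈ lev δ j) (v : E) :
    fderiv ℝ (smoothAt μ δ u a j) x v = ∫ z, G (x + a j • z) v ∂mollMeasure μ := by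
  have he := levRadius_eventually_eq hδ (a j) hx
  rw [smoothAt, shiftAvg_moll_fderiv μ hr (hu.locallyIntegrableOn hΩ.measurableSet)
    (hG.locallyIntegrableOn Ω) hΩ hw (lev_subset hδ j hx) v, he.fderiv_eq]
  simp [he.eq_of_nhds]

theorem smoothAt_sub_le (hδ : IsRadius Ω γ δ) (hΩ : IsOpen Ω) (hu : ContinuousOn u Ω)
    (hr : IsRadius Ω γ' (levRadius δ (a j) j)) (hx : x ∈ lev δ j) {η : ℝ}
    (hosc : ∀ z : E, ‖z‖ ≤ 1 → |u (x + a j • z) - u x| ≤ η) :
    |smoothAt μ δ u a j x - u x| ≤ η := by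
  classical
  have he : levRadius δ (a j) j x = a j := (levRadius_eventually_eq hδ (a j) hx).eq_of_nhds
  have hin : ∀ z : E, ‖z‖ ≤ 1 → x + a j • z ∈ Ω := fun z hz =>
    he ▸ hr.inside x (lev_subset hδ j hx) z (by linarith)
  have hb : ∀ᵐ z ∂mollMeasure μ, ‖u (x + a j • z) - u x‖ ≤ η := by
    filter_upwards [mollMeasure_ball μ] with z hz
    exact hosc z hz
  have hm : AEStronglyMeasurable (fun z => u (x + a j • z)) (mollMeasure μ) := by
    have h0 : Measurable (Ω.indicator u) :=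
      hu.measurable_piecewise (g := fun _ => (0 : ℝ)) continuousOn_const hΩ.measurableSet
    refine (h0.comp
      (by fun_prop : Measurable fun z : E => x + a j • z)).aestronglyMeasurable.congr ?_
    filter_upwards [mollMeasure_ball μ] with z hz
    simp [indicator_of_mem (hin z hz)]
  have hint : Integrable (fun z => u (x + a j • z)) (mollMeasure μ) :=
    Integrable.of_bound hm (η + ‖u x‖) (hb.mono fun z hz => by
      linarith [norm_le_norm_add_norm_sub' (u (x + a j • z)) (u x)])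
  have h : smoothAt μ δ u a j x - u x = ∫ z, (u (x + a j • z) - u x) ∂mollMeasure μ := by
    rw [integral_sub hint (integrable_const _), integral_const]
    simp [smoothAt, shiftAvg, he]
  rw [h, ← Real.norm_eq_abs]
  simpa using norm_integral_le_of_norm_le_const hb

theorem smoothAt_fderiv_sub_le (hδ : IsRadius Ω γ δ) (hΩ : IsOpen Ω) (hu : ContinuousOn u Ω)
    (hG : LocallyIntegrable G μ) (hw : WeakGrad μ Ω u G)
    (hr : IsRadius Ω γ' (levRadius δ (a j) j)) (hx : x ∈ lev δ j) (ha : a j ≠ 0) :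
    ‖fderiv ℝ (smoothAt μ δ u a j) x - G x‖ₑ ≤
      ∫⁻ z, ‖G (x + levRadius δ (a j) j x • z) - G x‖ₑ ∂mollMeasure μ := by
  have hi : Integrable (fun z => G (x + a j • z)) (mollMeasure μ) :=
    integrable_comp_mollifier μ hG x ha
  have h : fderiv ℝ (smoothAt μ δ u a j) x - G x =
      ∫ z, (G (x + a j • z) - G x) ∂mollMeasure μ := by
    rw [integral_sub hi (integrable_const _), integral_const]
    ext v
    simp [smoothAt_fderiv μ hδ hΩ hu hG hw hr hx, ContinuousLinearMap.integral_apply hi]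
  rw [h, (levRadius_eventually_eq hδ (a j) hx).eq_of_nhds]
  exact enorm_integral_le_lintegral_enorm _

variable {F : ℕ → E → ℝ} {η : ℕ → ℝ}

/-- The value of the glued function. -/
theorem glue_sub_le (hδ : IsRadius Ω γ δ) (hγ : γ ≤ 1) (hΩ : IsOpen Ω)
    (hF : ∀ j, ContDiffOn ℝ ∞ (F j) Ω) (hx : x ∈ Ω) {c b : ℝ}
    (h : ∀ j, x ∈ lev δ j → pw δ j x ≠ 0 → |F j x - c| ≤ b) : |glue δ F x - c| ≤ b := by
  obtain ⟨N, -, -, h1, hdiff, -, -⟩ := glue_spec hδ hγ hF hΩ hx
  rw [hdiff c]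
  refine (Finset.abs_sum_le_sum_abs _ _).trans ?_
  calc ∑ j ∈ Finset.range (N + 1), |pw δ j x * (F j x - c)|
      ≤ ∑ j ∈ Finset.range (N + 1), pw δ j x * b := Finset.sum_le_sum fun j _ => by
        rw [abs_mul, abs_of_nonneg (pw_nonneg hδ j x)]
        by_cases hj : pw δ j x = 0
        · simp [hj]
        · exact mul_le_mul_of_nonneg_left
            (h j (by_contra fun h' => hj (pw_eq_zero hδ h')) hj) (pw_nonneg hδ j x)
    _ = b := by rw [← Finset.sum_mul, h1, one_mul]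

/-- The derivative of the glued function against the convex combination of the derivatives. -/
theorem glue_fderiv_sub_le (hδ : IsRadius Ω γ δ) (hγ : γ ≤ 1) (hΩ : IsOpen Ω)
    (hF : ∀ j, ContDiffOn ℝ ∞ (F j) Ω) (hx : x ∈ Ω) {c b : ℝ} {M : ℕ → ℝ}
    (hM : ∀ j, ‖fderiv ℝ (pw δ j) x‖ ≤ M j) (hη : ∀ j, 0 ≤ η j)
    (hv : ∀ j, x ∈ lev δ j → |F j x - c| ≤ η j)
    (hb : ∀ j, x ∈ lev δ j → η j * M j ≤ b / 2 ^ j) (v : E) :
    ∃ S : Finset ℕ, (∀ j ∈ S, x ∈ lev δ j) ∧ (∀ j, pw δ j x ≠ 0 → j ∈ S) ∧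
      ∑ j ∈ S, pw δ j x = 1 ∧
      |fderiv ℝ (glue δ F) x v - ∑ j ∈ S, pw δ j x * fderiv ℝ (F j) x v| ≤ 2 * b * ‖v‖ := by
  classical
  obtain ⟨N, hN, h0, h1, -, -, hD⟩ := glue_spec hδ hγ hF hΩ hx
  set R := Finset.range (N + 1)
  set S := R.filter fun j => x ∈ lev δ j
  have hz : ∀ φ : ℕ → ℝ, ∑ j ∈ R, pw δ j x * φ j = ∑ j ∈ S, pw δ j x * φ j := fun φ =>
    (Finset.sum_filter_of_ne fun j _ h => by_contra fun hj =>
      h (by rw [pw_eq_zero hδ hj, zero_mul])).symm
  refine ⟨S, fun j hj => (Finset.mem_filter.1 hj).2, fun j hj => Finset.mem_filter.2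
    ⟨by_contra fun h => hj (h0 j h), by_contra fun h => hj (pw_eq_zero hδ h)⟩, ?_, ?_⟩
  · have := hz fun _ => 1
    simp only [mul_one] at this
    rw [← this, h1]
  · have hb0 : 0 ≤ b := by
      have := hb N hN
      have := (le_trans (mul_nonneg (hη N) ((norm_nonneg _).trans (hM N))) this)
      rwa [le_div_iff₀ (by positivity), zero_mul] at this
    rw [hD c, ← hz fun j => fderiv ℝ (F j) x v]
    simp only [sum_apply, add_apply, smul_apply, smul_eq_mul, ← Finset.sum_sub_distrib,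
      add_sub_cancel_left]
    refine (Finset.abs_sum_le_sum_abs _ _).trans ?_
    calc ∑ j ∈ R, |(F j x - c) * fderiv ℝ (pw δ j) x v|
        ≤ ∑ j ∈ R, b * ((1 : ℝ) / 2) ^ j * ‖v‖ := Finset.sum_le_sum fun j _ => by
          by_cases hj : x ∈ lev δ j
          · rw [abs_mul, ← Real.norm_eq_abs (fderiv ℝ (pw δ j) x v)]
            refine le_trans (mul_le_mul (hv j hj) ((ContinuousLinearMap.le_opNorm _ _).trans
              (mul_le_mul_of_nonneg_right (hM j) (norm_nonneg v))) (norm_nonneg _) (hη j)) ?_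
            rw [← mul_assoc, div_pow, one_pow, ← mul_div_assoc, mul_one]
            exact mul_le_mul_of_nonneg_right (hb j hj) (norm_nonneg v)
          · simp only [fderiv_pw_eq_zero hδ hj, zero_apply, mul_zero, abs_zero]
            positivity
      _ ≤ 2 * b * ‖v‖ := by
          rw [← Finset.sum_mul, ← Finset.mul_sum, mul_comm 2 b]
          exact mul_le_mul_of_nonneg_right (mul_le_mul_of_nonneg_left (sum_geometric_two_le _) hb0)
            (norm_nonneg v)

/-- The derivative of the glued function against the weak gradient. -/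
theorem glue_enorm_fderiv_sub_le (hδ : IsRadius Ω γ δ) (hγ : γ ≤ 1) (hΩ : IsOpen Ω)
    (hF : ∀ j, ContDiffOn ℝ ∞ (F j) Ω) (hx : x ∈ Ω) (T : E →L[ℝ] ℝ) {c : ℝ} {M : ℕ → ℝ}
    (hM : ∀ j, ‖fderiv ℝ (pw δ j) x‖ ≤ M j) (hη : ∀ j, 0 ≤ η j)
    (hv : ∀ j, x ∈ lev δ j → |F j x - c| ≤ η j) :
    ‖fderiv ℝ (glue δ F) x - T‖ₑ ≤ ∑' j, (lev δ j).indicator
      (fun y => ‖fderiv ℝ (F j) y - T‖ₑ + ENNReal.ofReal (η j * M j)) x := by
  obtain ⟨N, -, -, h1, -, -, hD⟩ := glue_spec hδ hγ hF hΩ hx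
  set R := Finset.range (N + 1)
  have hT : T = ∑ j ∈ R, pw δ j x • T := by rw [← Finset.sum_smul, h1, one_smul]
  rw [hD c]
  conv_lhs => rw [hT]
  rw [← Finset.sum_sub_distrib]
  refine (enorm_sum_le (ε := E →L[ℝ] ℝ) _ _).trans ((Finset.sum_le_sum fun j hj => ?_).trans (ENNReal.sum_le_tsum R))
  by_cases hjl : x ∈ lev δ j
  · rw [indicator_of_mem hjl, add_sub_right_comm, ← smul_sub]
    refine (enorm_add_le (E := E →L[ℝ] ℝ) _ _).trans (add_le_add ?_ ?_)
    · rw [enorm_smul]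
      refine mul_le_of_le_one_left' ?_
      rw [← ofReal_norm, Real.norm_of_nonneg (pw_nonneg hδ j x), ENNReal.ofReal_le_one, ← h1]
      exact Finset.single_le_sum (fun i _ => pw_nonneg hδ i x) hj
    · rw [← ofReal_norm, norm_smul]
      exact ENNReal.ofReal_le_ofReal (mul_le_mul ((Real.norm_eq_abs _).le.trans (hv j hjl)) (hM j)
        (norm_nonneg _) (hη j))
  · refine le_of_eq_of_le ?_ zero_le
    simp [pw_eq_zero hδ hjl, fderiv_pw_eq_zero hδ hjl, ← ofReal_norm]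

end Vale.Agent.P073.Cone
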