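import Vale.Agent.P073.Cone.Mat
import Vale.Agent.P073.Cone.Glue

/-!
The choice of the cones, the tolerances and the radii on the levels.
-/

open Set Metric Filter MeasureTheory
open scoped ContDiff Topology ENNReal

namespace Vale.Agent.P073.Cone

open Vale.Agent.P073

theorem exists_cone_data {Ω : Set E3} {γ : ℝ} {δ : E3 → ℝ} (hδ : IsRadius Ω γ δ)
    (hΩ : IsOpen Ω) (hbd : Bornology.IsBounded Ω) {G G₀ : Fin 3 → E3 → E3 →L[ℝ] ℝ}
    (hGG₀ : ∀ i, G i =ᵐ[volume.restrict Ω] G₀ i)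
    (hcone : ∀ x ∈ Ω, ∃ U, IsOpen U ∧ x ∈ U ∧ ∃ c > 0, ConeOn G U c) (k : ℕ) :
    ∃ (c lam : ℝ), 0 < c ∧ 0 < lam ∧ ∀ x ∈ lev δ k,
      ∃ U, IsOpen U ∧ ball x lam ⊆ U ∧ ConeOn G₀ U c := by
  set O : ℕ → Set E3 := fun n => ⋃₀ {U | IsOpen U ∧ ConeOn G₀ U (1 / (n + 1))}
  have hOo : ∀ n, IsOpen (O n) := fun n => isOpen_sUnion fun U hU => hU.1
  have hcov : lev δ k ⊆ ⋃ n, O n := by
    intro x hx
    obtain ⟨U, hU, hxU, c, hc, C, hC, hmar, hmem⟩ := hcone x (lev_subset hδ k hx)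
    obtain ⟨n, hn⟩ := exists_nat_one_div_lt hc
    refine mem_iUnion.2 ⟨n, U ∩ Ω, ⟨hU.inter hΩ, C, hC, fun A hA v =>
      (mul_le_mul_of_nonneg_right hn.le (norm_nonneg v)).trans (hmar A hA v), ?_⟩,
      hxU, lev_subset hδ k hx⟩
    filter_upwards [ae_restrict_of_ae_restrict_of_subset inter_subset_left hmem,
      ae_restrict_of_ae_restrict_of_subset (t := Ω) inter_subset_right
        (ae_all_iff.2 hGG₀)] with y ⟨A, hA, hAG⟩ hy
    exact ⟨A, hA, fun i v => by rw [hAG, hy i]⟩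
  have hmono : Monotone O := fun m n hmn => sUnion_mono fun U ⟨hU, C, hC, hmar, hmem⟩ =>
    ⟨hU, C, hC, fun A hA v => (mul_le_mul_of_nonneg_right
      (one_div_le_one_div_of_le (by positivity) (by exact_mod_cast Nat.add_le_add_right hmn 1))
      (norm_nonneg v)).trans (hmar A hA v), hmem⟩
  obtain ⟨n, hn⟩ := (isCompact_lev hδ hbd k).elim_directed_cover O hOo hcov hmono.directed_le
  obtain ⟨lam, hlam, hl⟩ := lebesgue_number_lemma_of_metric_sUnion (isCompact_lev hδ hbd k)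
    (fun U (hU : U ∈ {U | IsOpen U ∧ ConeOn G₀ U (1 / (n + 1 : ℝ))}) => hU.1) hn
  exact ⟨1 / (n + 1), lam, by positivity, hlam, fun x hx =>
    let ⟨U, hU, hb⟩ := hl x hx; ⟨U, hU.1, hb, hU.2⟩⟩

theorem exists_tolerance {Ω Λ : Set E3} {γ : ℝ} {δ : E3 → ℝ} (hδ : IsRadius Ω γ δ)
    (hbd : Bornology.IsBounded Ω) (hΛ : IsOpen Λ) {f : E3 → E3} (hfc : ContinuousOn f Ω)
    (hmaps : MapsTo f Ω Λ) {p : ℝ} (hp : 0 < p) (j : ℕ) {M : ℝ} (hM : 0 ≤ M) {c : ℕ → ℝ}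
    (hc : ∀ k, 0 < c k) {b e : ℝ≥0∞} (hb : b ≠ 0) (he : e ≠ 0) :
    ∃ η > (0 : ℝ), (∀ k ∈ Finset.range (j + 1), η * M ≤ c k / (12 * 2 ^ j)) ∧
      (∀ x ∈ lev δ j, closedBall (f x) (6 * η) ⊆ Λ) ∧
      ENNReal.ofReal (η * M) ^ p * volume Ω ≤ b ∧ ENNReal.ofReal η ^ p * volume Ω ≤ e := by
  have hμΩ : volume Ω ≠ ⊤ := hbd.measure_lt_top.ne
  have h0 : Tendsto (fun η : ℝ => η * (M + 1)) (𝓝[>] 0) (𝓝[>] 0) :=
    tendsto_nhdsWithin_iff.2 ⟨((continuous_mul_const (M + 1)).tendsto' 0 0 (zero_mul _)).mono_left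
      nhdsWithin_le_nhds, eventually_mem_nhdsWithin.mono fun η hη =>
        mul_pos (show (0 : ℝ) < η from hη) (by linarith)⟩
  have h1 : ∀ᶠ η in 𝓝[>] (0 : ℝ), ∀ k ∈ Finset.range (j + 1), η * M ≤ c k / (12 * 2 ^ j) := by
    rw [Finset.eventually_all]
    intro k _
    exact (((continuous_mul_const M).tendsto' 0 0 (zero_mul _)).mono_left
      nhdsWithin_le_nhds).eventually (eventually_le_nhds (by have := hc k; positivity))
  have h2 : ∀ᶠ η in 𝓝[>] (0 : ℝ), ∀ x ∈ lev δ j, closedBall (f x) (6 * η) ⊆ Λ := by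
    obtain ⟨d, hd, hdΛ⟩ := ((isCompact_lev hδ hbd j).image_of_continuousOn
      (hfc.mono (lev_subset hδ j))).exists_cthickening_subset_open hΛ
      (image_subset_iff.2 fun x hx => hmaps (lev_subset hδ j hx))
    filter_upwards [nhdsWithin_le_nhds (Iio_mem_nhds (show (0 : ℝ) < d / 6 by positivity))]
      with η hη x hx
    exact ((closedBall_subset_closedBall (by linarith [show η < d / 6 from hη])).trans
      (closedBall_subset_cthickening (mem_image_of_mem f hx) d)).trans hdΛ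
  have h3 := h0.eventually (eventually_rpow_mul_le hp hμΩ hb)
  have h4 : ∀ᶠ η in 𝓝[>] (0 : ℝ), ENNReal.ofReal η ^ p * volume Ω ≤ e :=
    eventually_rpow_mul_le hp hμΩ he
  obtain ⟨η, ⟨⟨⟨hη1, hη2⟩, hη3⟩, hη4⟩, hη0⟩ :=
    ((((h1.and h2).and h3).and h4).and eventually_mem_nhdsWithin).exists
  exact ⟨η, hη0, hη1, hη2, (mul_le_mul_left (ENNReal.rpow_le_rpow (ENNReal.ofReal_le_ofReal
    (mul_le_mul_of_nonneg_left (by linarith) (le_of_lt hη0))) hp.le) _).trans hη3, hη4⟩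

theorem exists_scale {Ω : Set E3} {γ : ℝ} {δ : E3 → ℝ} (hδ : IsRadius Ω γ δ) (hγ : γ ≤ 1)
    (hΩ : IsOpen Ω) (hbd : Bornology.IsBounded Ω) {f : E3 → E3} (hfc : ContinuousOn f Ω) (j : ℕ)
    {γ' : ℝ} (hγ' : 0 < γ') {lam : ℕ → ℝ} (hlam : ∀ k, 0 < lam k) {η : ℝ} (hη : 0 < η) :
    ∃ a > (0 : ℝ), IsRadius Ω γ' (levRadius δ a j) ∧ (∀ k ∈ Finset.range (j + 1), a < lam k) ∧
      ∀ x ∈ lev δ j, ∀ z : E3, ‖z‖ ≤ 1 → ‖f (x + a • z) - f x‖ ≤ η := by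
  have h1 := levRadius_eventually_isRadius hδ hγ hΩ hbd j hγ'
  have h2 : ∀ᶠ a in 𝓝[>] (0 : ℝ), ∀ k ∈ Finset.range (j + 1), a < lam k := by
    rw [Finset.eventually_all]
    exact fun k _ => nhdsWithin_le_nhds (Iio_mem_nhds (hlam k))
  have h3 : ∀ᶠ a in 𝓝[>] (0 : ℝ), ∀ x ∈ lev δ j, ∀ z : E3, ‖z‖ ≤ 1 →
      ‖f (x + a • z) - f x‖ ≤ η := by
    have hu := (isCompact_lev hδ hbd j).uniformContinuousAt_of_continuousAt f
      (fun x hx => hfc.continuousAt (hΩ.mem_nhds (lev_subset hδ j hx)))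
      (Metric.dist_mem_uniformity hη)
    obtain ⟨d, hd, hdf⟩ := Metric.mem_uniformity_dist.1 hu
    filter_upwards [nhdsWithin_le_nhds (Iio_mem_nhds hd), eventually_mem_nhdsWithin]
      with a ha (ha0 : 0 < a) x hx z hz
    have hd' : dist x (x + a • z) < d := by
      rw [dist_eq_norm, sub_add_cancel_left, norm_neg, norm_smul, Real.norm_of_nonneg ha0.le]
      nlinarith [show a < d from ha]
    have := hdf hd' hx
    rw [← dist_eq_norm, dist_comm]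
    exact le_of_lt this
  obtain ⟨a, ⟨⟨hA, hB⟩, hC⟩, ha⟩ :=
    (((h1.and h2).and h3).and eventually_mem_nhdsWithin).exists
  exact ⟨a, ha, hA, hB, hC⟩

end Vale.Agent.P073.Cone
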