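import Vale.Agent.P073.Cone.Global
import Vale.Agent.P073.Cone.Data

/-!
Approximation of Sobolev homeomorphisms whose derivative lies locally in a convex set of uniformly
nonsingular matrices.
-/

open Set Metric Filter MeasureTheory
open scoped ContDiff Topology ENNReal

namespace Vale.Agent.P073.Cone

open Vale.Agent.P073

/-- A smooth bijection of `Ω` onto `Λ` with smooth inverse. -/
def IsSmoothDiffeo {E : Type*} [NormedAddCommGroup E] [NormedSpace ℝ E] [Nonempty E]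
    (Ω Λ : Set E) (g : E → E) : Prop :=
  ContDiffOn ℝ ∞ g Ω ∧ BijOn g Ω Λ ∧ ContDiffOn ℝ ∞ (Function.invFunOn g Ω) Λ

/-- The weak gradient of the smooth map `g`, component by component. -/
noncomputable def compGrad {E ι : Type*} [NormedAddCommGroup E] [NormedSpace ℝ E]
    (π : ι → E →L[ℝ] ℝ) (g : E → E) (i : ι) (x : E) : E →L[ℝ] ℝ :=
  fderiv ℝ (fun y => π i (g y)) x

/-- The `W^{1,p}` distance of `u` from the pair `w, G`, to the power `p`. -/
noncomputable def w1pDist {E : Type*} [NormedAddCommGroup E] [NormedSpace ℝ E] [MeasurableSpace E]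
    (μ : Measure E) (p : ℝ) (Ω : Set E) (u w : E → ℝ) (G : E → E →L[ℝ] ℝ) : ℝ≥0∞ :=
  ∫⁻ x in Ω, (‖u x - w x‖ₑ ^ p + ‖fderiv ℝ u x - G x‖ₑ ^ p) ∂μ

/-- The scalar estimate on one level. -/
theorem lintegral_level_le {Ω : Set E3} {γ γ' p η M : ℝ} {δ : E3 → ℝ} {u : E3 → ℝ}
    {G : E3 → E3 →L[ℝ] ℝ} {a : ℕ → ℝ} {j : ℕ} (hp : 1 ≤ p) (hδ : IsRadius Ω γ δ) (hΩ : IsOpen Ω)
    (hu : ContinuousOn u Ω) (hG : LocallyIntegrable G volume) (hw : WeakGrad volume Ω u G)
    (hr : IsRadius Ω γ' (levRadius δ (a j) j)) (ha : a j ≠ 0) {b : ℝ≥0∞}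
    (hG₁ : ∫⁻ x in Ω, (∫⁻ z, ‖G (x + levRadius δ (a j) j x • z) - G x‖ₑ
      ∂mollMeasure volume) ^ p ≤ b)
    (hηM : ENNReal.ofReal (η * M) ^ p * volume Ω ≤ b) :
    ∫⁻ x in Ω, ((lev δ j).indicator (fun y => ‖fderiv ℝ (smoothAt volume δ u a j) y - G y‖ₑ +
      ENNReal.ofReal (η * M)) x) ^ p ≤ 2 ^ (p - 1) * (b + b) := by
  have hC : (2 : ℝ≥0∞) ^ (p - 1) ≠ ⊤ := ENNReal.rpow_ne_top_of_nonneg (by linarith) (by simp)
  calc ∫⁻ x in Ω, ((lev δ j).indicator (fun y => ‖fderiv ℝ (smoothAt volume δ u a j) y - G y‖ₑ +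
        ENNReal.ofReal (η * M)) x) ^ p
      ≤ ∫⁻ x in Ω, 2 ^ (p - 1) * ((∫⁻ z, ‖G (x + levRadius δ (a j) j x • z) - G x‖ₑ
          ∂mollMeasure volume) ^ p + ENNReal.ofReal (η * M) ^ p) := by
        refine lintegral_mono fun x => ?_
        by_cases hx : x ∈ lev δ j
        · rw [indicator_of_mem hx]
          refine (ENNReal.rpow_add_le_mul_rpow_add_rpow _ _ hp).trans ?_
          exact mul_le_mul_right (add_le_add_left (ENNReal.rpow_le_rpow
            (smoothAt_fderiv_sub_le volume hδ hΩ hu hG hw hr hx ha) (by linarith)) _) _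
        · simp [indicator_of_notMem hx, ENNReal.zero_rpow_of_pos (by linarith : 0 < p)]
    _ ≤ 2 ^ (p - 1) * (b + b) := by
        rw [lintegral_const_mul' _ _ hC, lintegral_add_right _ measurable_const, setLIntegral_const]
        gcongr

theorem exists_approx {p : ℝ} (hp : 1 ≤ p) {Ω Λ : Set E3} (hΩ : IsOpen Ω)
    (hΩc : IsPreconnected Ω) (hbd : Bornology.IsBounded Ω) (hΛ : IsOpen Λ)
    (hΛb : Bornology.IsBounded Λ) {f : E3 → E3} {G : Fin 3 → E3 → E3 →L[ℝ] ℝ}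
    (hfc : ContinuousOn f Ω) (hbij : BijOn f Ω Λ)
    (hfi : ContinuousOn (Function.invFunOn f Ω) Λ) (hf : IsW1p p Ω f G)
    (hcone : ∀ x ∈ Ω, ∃ U, IsOpen U ∧ x ∈ U ∧ ∃ c > 0, ConeOn G U c)
    {ε : ℝ≥0∞} (hε : ε ≠ 0) :
    ∃ g : E3 → E3, ContDiffOn ℝ ∞ g Ω ∧ BijOn g Ω Λ ∧
      ContDiffOn ℝ ∞ (Function.invFunOn g Ω) Λ ∧
      IsW1p p Ω g (fun i x => fderiv ℝ (fun y => g y i) x) ∧
      ∀ i, (∫⁻ x in Ω, ‖g x i - f x i‖ₑ ^ p) ≤ ε ∧
        (∫⁻ x in Ω, ‖fderiv ℝ (fun y => g y i) x - G i x‖ₑ ^ p) ≤ ε := by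
  classical
  have hp0 : (0 : ℝ) < p := by linarith
  have hΩm := hΩ.measurableSet
  have hμΩ : volume Ω ≠ ⊤ := hbd.measure_lt_top.ne
  choose G₀ hG₀m hGG₀ hG₀P using fun i => exists_global_rep hΩm (hf i).2.1
  have hG₀l : ∀ i, LocallyIntegrable (G₀ i) volume := fun i =>
    (hG₀P i).locallyIntegrable (by rwa [ENNReal.one_le_ofReal])
  have hfc' : ∀ i, ContinuousOn (fun y => f y i) Ω := fun i =>
    (coord i).continuous.comp_continuousOn hfc
  have hfw : ∀ i, WeakGrad volume Ω (fun y => f y i) (G₀ i) := fun i =>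
    (hf i).2.2.congr_ae hΩm (hGG₀ i)
  obtain ⟨δ, hδ⟩ := exists_radius hΩ hbd one_pos
  choose M hM0 hM using exists_pw_deriv_bound hδ hbd
  choose cc lam hcc hlam hU using exists_cone_data hδ hΩ hbd hGG₀ hcone
  -- the sizes
  set ε' := min ε 1
  have hε' : ε' ≠ 0 := (lt_min (pos_iff_ne_zero.2 hε) one_pos).ne'
  have hε't : ε' ≠ ⊤ := ne_top_of_le_ne_top ENNReal.one_ne_top (min_le_right _ _)
  obtain ⟨s, hs0, hssum⟩ := ENNReal.exists_pos_sum_of_countable'
    (ENNReal.rpow_pos (p := 1 / p) (pos_iff_ne_zero.2 hε') hε't).ne' ℕ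
  have hst : ∀ j, s j ≠ ⊤ := fun j => ne_top_of_le_ne_top hssum.ne_top (ENNReal.le_tsum j)
  have hC : (2 : ℝ≥0∞) ^ (p - 1) ≠ ⊤ := ENNReal.rpow_ne_top_of_nonneg (by linarith) (by simp)
  have hK : (2 : ℝ≥0∞) ^ (p - 1) * 2 ≠ ⊤ := ENNReal.mul_ne_top hC (by simp)
  set b : ℕ → ℝ≥0∞ := fun j => s j ^ p / (2 ^ (p - 1) * 2)
  have hb : ∀ j, b j ≠ 0 := fun j =>
    (ENNReal.div_pos (ENNReal.rpow_pos (hs0 j) (hst j)).ne' hK).ne'
  have hbs : ∀ j, 2 ^ (p - 1) * (b j + b j) ≤ s j ^ p := fun j => by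
    rw [show 2 ^ (p - 1) * (b j + b j) = (2 ^ (p - 1) * 2) * b j by ring]
    exact ENNReal.mul_div_le
  choose η hη0 hηc hηΛ hηb hηε using fun j =>
    exists_tolerance hδ hbd hΛ hfc hbij.mapsTo hp0 j (hM0 j) hcc (hb j) hε'
  choose gs hgs0 hgs using fun j i => exists_shift_sub_small volume hp (G₀ i) (hG₀m i) (hG₀P i)
    Ω hμΩ (b j) (hb j)
  choose a ha0 har hal haf using fun j => exists_scale hδ le_rfl hΩ hbd hfc j
    (lt_min (hgs0 j 0) (lt_min (hgs0 j 1) (hgs0 j 2))) hlam (hη0 j)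
  -- the glued map
  set F : Fin 3 → ℕ → E3 → ℝ := fun i => smoothAt volume δ (fun y => f y i) a
  have hFs : ∀ i j, ContDiffOn ℝ ∞ (F i j) Ω := fun i j =>
    shiftAvg_moll_contDiffOn volume (har j) ((hfc' i).locallyIntegrableOn hΩm)
  have hFv : ∀ i j x, x ∈ lev δ j → |F i j x - f x i| ≤ η j := fun i j x hx =>
    smoothAt_sub_le volume hδ hΩ (hfc' i) (har j) hx fun z hz => by
      have := PiLp.norm_apply_le (f (x + a j • z) - f x) i
      exact this.trans (haf j x hx z hz)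
  set g : E3 → E3 := fun x => WithLp.toLp 2 fun i => glue δ (F i) x
  have hgs' : ContDiffOn ℝ ∞ g Ω := by
    refine (contDiffOn_piLp 2).2 fun i x hx => ?_
    obtain ⟨N, -, -, -, -, hc, -⟩ := glue_spec hδ le_rfl (hFs i) hΩ hx
    exact hc.contDiffWithinAt
  have hval : ∀ x ∈ Ω, ∃ j, x ∈ lev δ j ∧ ∀ i, |g x i - f x i| ≤ η j := fun x hx => by
    obtain ⟨N, hNx, hNe⟩ := exists_finite_nhds hδ le_rfl hx
    obtain ⟨h0, -⟩ := hNe.self_of_nhds
    obtain ⟨jm, hjm, hmax⟩ := ((Finset.range (N + 1)).filter fun j => x ∈ lev δ j).exists_max_image η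
      ⟨N, by simp [hNx]⟩
    exact ⟨jm, (Finset.mem_filter.1 hjm).2, fun i => glue_sub_le hδ le_rfl hΩ (hFs i) hx
      fun j hj hne => (hFv i j x hj).trans (hmax j (Finset.mem_filter.2
        ⟨by_contra fun h => hne (h0 j h), hj⟩))⟩
  have hclose : ∀ x ∈ Ω, closedBall (f x) (2 * ‖g x - f x‖) ⊆ Λ := fun x hx => by
    obtain ⟨j, hj, hv⟩ := hval x hx
    refine (closedBall_subset_closedBall ?_).trans (hηΛ j x hj)
    have := (norm_le_sum_abs (g x - f x)).trans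
      (Finset.sum_le_sum (g := fun _ => η j) fun i _ => by simpa using hv i)
    simp at this
    linarith
  have hcs : ∀ i, ContDiffOn ℝ ∞ (fun y => g y i) Ω := fun i => (contDiffOn_piLp 2).1 hgs' i
  have hcomp : ∀ x ∈ Ω, ∀ i v, fderiv ℝ g x v i = fderiv ℝ (glue δ (F i)) x v := fun x hx i v => by
    have := ((coord i).hasFDerivAt.comp x
      ((hgs'.contDiffAt (hΩ.mem_nhds hx)).differentiableAt (by simp)).hasFDerivAt).fderiv
    exact (congrArg (fun T : E3 →L[ℝ] ℝ => T v) this).symm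
  have hinj : ∀ x ∈ Ω, Function.Injective (fderiv ℝ g x) := by
    intro x hx
    obtain ⟨N, hNx, -⟩ := exists_finite_nhds hδ le_rfl hx
    have hex : ∃ k, x ∈ lev δ k := ⟨N, hNx⟩
    set k := Nat.find hex
    have hjk : ∀ j, x ∈ lev δ j → k ∈ Finset.range (j + 1) := fun j hj =>
      Finset.mem_range.2 (Nat.lt_succ_of_le (Nat.find_min' hex hj))
    obtain ⟨U, hUo, hball, C, hC, hmar, hmem⟩ := hU k x (Nat.find_spec hex)
    have hA : ∀ j, x ∈ lev δ j → ∃ A ∈ closure C, ∀ i v, A v i = fderiv ℝ (F i j) x v := by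
      intro j hj
      obtain ⟨A, hA, hAv⟩ := avg_cone hG₀l hUo hC hmem (x := x) (ha0 j)
        ((closedBall_subset_ball (hal j k (hjk j hj))).trans hball)
      exact ⟨A, hA, fun i v => by
        rw [hAv, smoothAt_fderiv volume hδ hΩ (hfc' i) (hG₀l i) (hfw i) (har j) hj]⟩
    choose! A hAC hAv using hA
    have hspec : ∀ i v, ∃ S : Finset ℕ, (∀ j ∈ S, x ∈ lev δ j) ∧
        (∀ j, pw δ j x ≠ 0 → j ∈ S) ∧ ∑ j ∈ S, pw δ j x = 1 ∧
        |fderiv ℝ (glue δ (F i)) x v - ∑ j ∈ S, pw δ j x * fderiv ℝ (F i j) x v| ≤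
          2 * (cc k / 12) * ‖v‖ := fun i v =>
      glue_fderiv_sub_le hδ le_rfl hΩ (hFs i) hx (fun j => hM j x) (fun j => (hη0 j).le)
        (fun j hj => hFv i j x hj) (fun j hj => by
          rw [div_div]
          exact hηc j k (hjk j hj)) v
    obtain ⟨S, hS, hSsupp, hS1, -⟩ := hspec 0 0
    refine injective_of_cone hC (hcc k) hmar _ S (fun j => pw δ j x)
      (fun j _ => pw_nonneg hδ j x) hS1 A (fun j hj => hAC j (hS j hj)) fun i v => ?_
    obtain ⟨S', hS', hS'supp, -, hle⟩ := hspec i v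
    rw [hcomp x hx i v]
    have hsum : ∑ j ∈ S, pw δ j x * A j v i = ∑ j ∈ S', pw δ j x * fderiv ℝ (F i j) x v := by
      refine Finset.sum_bij_ne_zero (fun j _ _ => j) (fun j _ h => hS'supp j (left_ne_zero_of_mul h))
        (fun _ _ _ _ _ _ h => h) (fun j hj h => ⟨j, hSsupp j (left_ne_zero_of_mul h), ?_, rfl⟩)
        fun j hj _ => by rw [hAv j (hS j hj) i v]
      rwa [hAv j (hS' j hj) i v]
    rw [hsum]
    refine hle.trans (le_of_eq ?_)
    ring
  obtain ⟨hgbij, hginv⟩ := diffeo_of_fine hΩ hΩc hΛ hΛb hbij hfi hgs' hinj hclose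
  -- the norms
  have hV : ∀ i, ∫⁻ x in Ω, ‖g x i - f x i‖ₑ ^ p ≤ ε' := fun i => by
    calc ∫⁻ x in Ω, ‖g x i - f x i‖ₑ ^ p ≤ ∫⁻ _ in Ω, ⨆ j, ENNReal.ofReal (η j) ^ p := by
          refine setLIntegral_mono' hΩm fun x hx => ?_
          obtain ⟨j, -, hv⟩ := hval x hx
          refine le_trans ?_ (le_iSup (fun j => ENNReal.ofReal (η j) ^ p) j)
          refine ENNReal.rpow_le_rpow ?_ hp0.le
          rw [← ofReal_norm, Real.norm_eq_abs]
          exact ENNReal.ofReal_le_ofReal (hv i)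
      _ ≤ ε' := by
          rw [setLIntegral_const, ENNReal.iSup_mul]
          exact iSup_le hηε
  have hD : ∀ i, ∫⁻ x in Ω, ‖fderiv ℝ (fun y => g y i) x - G i x‖ₑ ^ p ≤ ε' := by
    intro i
    set B : ℕ → E3 → ℝ≥0∞ := fun j => (lev δ j).indicator
      fun y => ‖fderiv ℝ (F i j) y - G₀ i y‖ₑ + ENNReal.ofReal (η j * M j)
    have hBm : ∀ j, Measurable (B j) := fun j =>
      (((measurable_fderiv ℝ (F i j)).stronglyMeasurable.sub (hG₀m i)).enorm.add_const _).indicator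
        (isClosed_lev hδ j).measurableSet
    have hgi : min (gs · 0) (min (gs · 1) (gs · 2)) ≤ fun j => gs j i := fun j => by
      fin_cases i <;> simp
    calc ∫⁻ x in Ω, ‖fderiv ℝ (fun y => g y i) x - G i x‖ₑ ^ p
        ≤ ∫⁻ x in Ω, (∑' j, B j x) ^ p := by
          refine lintegral_mono_ae ?_
          filter_upwards [hGG₀ i, ae_restrict_mem hΩm] with x hxG hx
          rw [hxG]
          exact ENNReal.rpow_le_rpow (glue_enorm_fderiv_sub_le hδ le_rfl hΩ (hFs i) hx (G₀ i x)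
            (fun j => hM j x) (fun j => (hη0 j).le) fun j hj => hFv i j x hj) hp0.le
      _ ≤ (∑' j, s j) ^ p := lintegral_tsum_rpow_le hp hBm fun j => by
          refine le_trans (lintegral_level_le hp hδ hΩ (hfc' i) (hG₀l i) (hfw i) (har j) (ha0 j).ne'
            ?_ (hηb j)) (hbs j)
          exact hgs j i (mollMeasure volume) (mollMeasure_ball volume) _
            ((har j).smooth.differentiable (by simp))
            (fun x => (abs_of_nonneg ((har j).nonneg x)).trans_le (((har j).le x).trans (hgi j)))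
            fun x => ((har j).deriv x).trans (hgi j)
      _ ≤ (ε' ^ (1 / p)) ^ p := ENNReal.rpow_le_rpow hssum.le hp0.le
      _ = ε' := by rw [← ENNReal.rpow_mul, one_div_mul_cancel hp0.ne', ENNReal.rpow_one]
  have : IsFiniteMeasure (volume.restrict Ω) := isFiniteMeasure_restrict.2 hμΩ
  have hp1 : (1 : ℝ≥0∞) ≤ ENNReal.ofReal p := by rwa [ENNReal.one_le_ofReal]
  have hm1 : ∀ i, MemLp (fun x => g x i) (ENNReal.ofReal p) (volume.restrict Ω) := fun i =>
    memLp_of_close hp0 hε't ((hcs i).continuousOn.aestronglyMeasurable hΩm) (hf i).1 (hV i)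
  have hm2 : ∀ i, MemLp (fun x => fderiv ℝ (fun y => g y i) x) (ENNReal.ofReal p)
      (volume.restrict Ω) := fun i => memLp_of_close hp0 hε't
    (((hcs i).continuousOn_fderiv_of_isOpen hΩ (by simp)).aestronglyMeasurable hΩm) (hf i).2.1
    (hD i)
  exact ⟨g, hgs', hgbij, hginv, fun i => ⟨hm1 i, hm2 i,
    weakGrad_fderiv hΩ (hcs i) ((hm1 i).integrable hp1) ((hm2 i).integrable hp1)⟩,
    fun i => ⟨(hV i).trans (min_le_left _ _), (hD i).trans (min_le_left _ _)⟩⟩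

end Vale.Agent.P073.Cone
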