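import Mathlib

/-!
A local diffeomorphism that stays finely close to a homeomorphism of domains is a diffeomorphism
onto the same target.
-/

open Set Metric Filter Function
open scoped ContDiff Topology unitInterval

namespace Vale.Agent.P073.Cone

variable {E : Type*} [NormedAddCommGroup E] [NormedSpace ℝ E] [FiniteDimensional ℝ E]

/-- An injective derivative as an equivalence. -/
theorem exists_equiv_of_injective (A : E →L[ℝ] E) (hA : Injective A) :
    ∃ e : E ≃L[ℝ] E, (e : E →L[ℝ] E) = A :=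
  ⟨(LinearEquiv.ofInjectiveEndo (A : E →ₗ[ℝ] E) hA).toContinuousLinearEquiv, by ext; rfl⟩

theorem isLocalHomeomorphOn_of_injective {Ω : Set E} (hΩ : IsOpen Ω) {g : E → E}
    (hg : ContDiffOn ℝ ∞ g Ω) (hinj : ∀ x ∈ Ω, Injective (fderiv ℝ g x)) :
    IsLocalHomeomorphOn g Ω := by
  refine IsLocalHomeomorphOn.mk g Ω fun x hx => ?_
  have hgx := hg.contDiffAt (hΩ.mem_nhds hx)
  obtain ⟨e, he⟩ := exists_equiv_of_injective _ (hinj x hx)
  have hd : HasFDerivAt g (e : E →L[ℝ] E) x :=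
    he ▸ (hgx.differentiableAt (by simp)).hasFDerivAt
  exact ⟨hgx.toOpenPartialHomeomorph g hd (by simp), hgx.mem_toOpenPartialHomeomorph_source hd
    (by simp), fun y _ => rfl⟩

/-- The preimages of compact sets are compact. -/
theorem isCompact_preimage_fine {Ω Λ : Set E} (hbd : Bornology.IsBounded Λ) (hΛ : IsOpen Λ)
    {f g : E → E} (hf : BijOn f Ω Λ) (hfi : ContinuousOn (invFunOn f Ω) Λ)
    (hg : ContinuousOn g Ω)
    (hclose : ∀ x ∈ Ω, closedBall (f x) (2 * ‖g x - f x‖) ⊆ Λ) {K : Set E} (hK : IsCompact K)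
    (hKΛ : K ⊆ Λ) : IsCompact (Ω ∩ g ⁻¹' K) := by
  obtain ⟨d, hd, hdΛ⟩ := hK.exists_thickening_subset_open hΛ hKΛ
  set K' := closure Λ ∩ {y | ∀ z ∉ Λ, 2 * d / 3 ≤ dist y z}
  have hK'c : IsCompact K' := hbd.isCompact_closure.inter_right <| by
    simp only [ofPred_forall]
    exact isClosed_iInter fun z => isClosed_iInter fun _ =>
      isClosed_le continuous_const (continuous_id.dist continuous_const)
  have hK'Λ : K' ⊆ Λ := fun y hy => by
    by_contra h
    have := hy.2 y h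
    rw [dist_self] at this
    linarith
  set P := invFunOn f Ω '' K'
  have hPc : IsCompact P := hK'c.image_of_continuousOn (hfi.mono hK'Λ)
  have hPΩ : P ⊆ Ω := by
    rintro _ ⟨y, hy, rfl⟩
    exact hf.surjOn.mapsTo_invFunOn (hK'Λ hy)
  have hsub : Ω ∩ g ⁻¹' K ⊆ P := by
    rintro x ⟨hx, hxK⟩
    refine ⟨f x, ⟨subset_closure (hf.mapsTo hx), fun z hz => ?_⟩, hf.injOn.leftInvOn_invFunOn hx⟩
    have h1 : ¬ dist z (f x) ≤ 2 * ‖g x - f x‖ := fun h => hz (hclose x hx h)
    have h2 : ¬ dist z (g x) < d := fun h => hz (hdΛ (mem_thickening_iff.2 ⟨g x, hxK, h⟩))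
    have h3 : dist z (g x) ≤ dist z (f x) + ‖g x - f x‖ := by
      rw [← dist_eq_norm (g x), dist_comm (g x)]
      exact dist_triangle _ _ _
    rw [dist_comm]
    linarith
  have he : Ω ∩ g ⁻¹' K = P ∩ g ⁻¹' K :=
    Subset.antisymm (fun x hx => ⟨hsub hx, hx.2⟩) fun x hx => ⟨hPΩ hx.1, hx.2⟩
  rw [he]
  exact hPc.of_isClosed_subset
    ((hg.mono hPΩ).preimage_isClosed_of_isClosed hPc.isClosed hK.isClosed) inter_subset_left

/-- Fine closeness to a homeomorphism makes a local diffeomorphism a diffeomorphism. -/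
theorem diffeo_of_fine {Ω Λ : Set E} (hΩ : IsOpen Ω) (hΩc : IsPreconnected Ω)
    (hΛ : IsOpen Λ) (hbd : Bornology.IsBounded Λ) {f g : E → E} (hf : BijOn f Ω Λ)
    (hfi : ContinuousOn (invFunOn f Ω) Λ) (hg : ContDiffOn ℝ ∞ g Ω)
    (hinj : ∀ x ∈ Ω, Injective (fderiv ℝ g x))
    (hclose : ∀ x ∈ Ω, closedBall (f x) (2 * ‖g x - f x‖) ⊆ Λ) :
    BijOn g Ω Λ ∧ ContDiffOn ℝ ∞ (invFunOn g Ω) Λ := by
  have hmem : ∀ x ∈ Ω, g x ∈ Λ := fun x hx => hclose x hx <| by
    rw [mem_closedBall, dist_eq_norm]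
    linarith [norm_nonneg (g x - f x)]
  have : LocallyCompactSpace Λ := hΛ.locallyCompactSpace
  have : PreconnectedSpace Ω := Subtype.preconnectedSpace hΩc
  let gs : Ω → Λ := fun x => ⟨g x, hmem x x.2⟩
  have hgs : Continuous gs := (continuousOn_iff_continuous_domRestrict.1 hg.continuousOn).subtype_mk _
  have hloc : IsLocalHomeomorph gs := by
    have hv : IsLocalHomeomorph (Subtype.val : Λ → E) :=
      hΛ.isOpenEmbedding_subtypeVal.isLocalHomeomorph
    have hc : IsLocalHomeomorph (fun x : Ω => g x) := by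
      rw [isLocalHomeomorph_iff_isLocalHomeomorphOn_univ]
      exact (isLocalHomeomorphOn_of_injective hΩ hg hinj).comp
        ((isLocalHomeomorph_iff_isLocalHomeomorphOn_univ.1
          hΩ.isOpenEmbedding_subtypeVal.isLocalHomeomorph)) fun x _ => x.2
    exact IsLocalHomeomorph.of_comp (g := Subtype.val) (f := gs) hc hv hgs
  have hprop : IsProperMap gs := by
    rw [isProperMap_iff_isCompact_preimage]
    refine ⟨hgs, fun K hK => ?_⟩
    rw [Subtype.isCompact_iff] at hK ⊢
    convert isCompact_preimage_fine hbd hΛ hf hfi hg.continuousOn hclose hK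
      (Subtype.coe_image_subset Λ K) using 1
    ext x
    constructor
    · rintro ⟨y, hy, rfl⟩
      exact ⟨y.2, gs y, hy, rfl⟩
    · rintro ⟨hx, z, hz, hzx⟩
      exact ⟨⟨x, hx⟩, by simpa [mem_preimage, show gs ⟨x, hx⟩ = z from Subtype.ext hzx.symm], rfl⟩
  have hcov : IsCoveringMap gs := by
    rw [isCoveringMap_iff_isCoveringMapOn_univ]
    refine hprop.isClosedMap.isCoveringMapOn_of_isLocalHomeomorphOn (fun y _ => ?_) ?_
    · refine (hprop.isCompact_preimage isCompact_singleton).finite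
        (.of_openPartialHomeomorph gs subset_rfl fun e _ => ?_)
      obtain ⟨φ, hφ, h⟩ := hloc e
      exact ⟨φ, hφ, h.symm⟩
    · simpa [← isLocalHomeomorph_iff_isLocalHomeomorphOn_univ]
  -- the straight homotopy from `g ∘ f⁻¹` to the identity, lifted
  have hfm : ∀ y ∈ Λ, invFunOn f Ω y ∈ Ω := fun y hy => hf.surjOn.mapsTo_invFunOn hy
  let fi : C(Λ, Ω) := ⟨fun y => ⟨invFunOn f Ω y, hfm y y.2⟩,
    (continuousOn_iff_continuous_domRestrict.1 hfi).subtype_mk _⟩
  have hseg : ∀ q : I × Λ, (1 - (q.1 : ℝ)) • g (fi q.2) + (q.1 : ℝ) • (q.2 : E) ∈ Λ := by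
    rintro ⟨t, y, hy⟩
    have hfy : f (invFunOn f Ω y) = y := hf.surjOn.rightInvOn_invFunOn hy
    refine hclose _ (hfm y hy) ?_
    rw [mem_closedBall, dist_eq_norm, hfy]
    show ‖(1 - (t : ℝ)) • g (invFunOn f Ω y) + (t : ℝ) • y - y‖ ≤ _
    rw [show (1 - (t : ℝ)) • g (invFunOn f Ω y) + (t : ℝ) • y - y =
      (1 - (t : ℝ)) • (g (invFunOn f Ω y) - y) by module, norm_smul,
      Real.norm_of_nonneg (by linarith [t.2.2])]
    nlinarith [t.2.1, norm_nonneg (g (invFunOn f Ω y) - y)]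
  let H : C(I × Λ, Λ) := ⟨fun q => ⟨_, hseg q⟩, by
    refine Continuous.subtype_mk ?_ _
    have h1 : Continuous fun x : Ω => g x :=
      continuousOn_iff_continuous_domRestrict.1 hg.continuousOn
    have h2 : Continuous fun q : I × Λ => g (fi q.2) := h1.comp (fi.continuous.comp continuous_snd)
    have h3 : Continuous fun q : I × Λ => (q.1 : ℝ) := continuous_subtype_val.comp continuous_fst
    have h4 : Continuous fun q : I × Λ => (q.2 : E) := continuous_subtype_val.comp continuous_snd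
    exact ((continuous_const.sub h3).smul h2).add (h3.smul h4)⟩
  have H0 : ∀ y, H (0, y) = gs (fi y) := fun y => Subtype.ext (by simp [H, gs])
  set L := hcov.liftHomotopy H fi H0 with hL
  let s : C(Λ, Ω) := ⟨fun y => L (1, y), by fun_prop⟩
  have hs : ∀ y, gs (s y) = y := fun y => by
    have := congr_fun (hcov.liftHomotopy_lifts H fi H0) (1, y)
    refine this.trans (Subtype.ext ?_)
    simp [H]
  have hso : IsOpen (range s) := by
    have : IsLocalHomeomorph (gs ∘ s) := by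
      rw [show gs ∘ s = id from funext hs]
      exact (Homeomorph.refl Λ).isOpenEmbedding.isLocalHomeomorph
    exact (IsLocalHomeomorph.of_comp this hloc s.continuous).isOpenMap.isOpen_range
  have hsc : IsClosed (range s) := by
    rw [show range s = {x | s (gs x) = x} from Set.ext fun x =>
      ⟨by rintro ⟨y, rfl⟩; show s (gs (s y)) = s y; rw [hs], fun h => ⟨_, h⟩⟩]
    exact isClosed_eq (s.continuous.comp hgs) continuous_id
  have hall : ∀ x, s (gs x) = x := fun x => by
    have hne : (range s).Nonempty := ⟨_, gs x, rfl⟩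
    have hu : range s = univ := IsClopen.eq_univ ⟨hsc, hso⟩ hne
    obtain ⟨y, rfl⟩ := (hu.symm ▸ mem_univ x : x ∈ range s)
    rw [hs]
  have hbij : BijOn g Ω Λ := by
    refine ⟨hmem, fun x hx x' hx' h => ?_, fun y hy => ⟨_, (s ⟨y, hy⟩).2, ?_⟩⟩
    · have : gs ⟨x, hx⟩ = gs ⟨x', hx'⟩ := Subtype.ext h
      exact congrArg Subtype.val ((hall _).symm.trans ((congrArg s this).trans (hall _)))
    · exact congrArg Subtype.val (hs ⟨y, hy⟩)
  refine ⟨hbij, fun y hy => ?_⟩
  obtain ⟨x, hx, rfl⟩ := hbij.surjOn hy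
  have hgx := hg.contDiffAt (hΩ.mem_nhds hx)
  obtain ⟨e, he⟩ := exists_equiv_of_injective _ (hinj x hx)
  have hd : HasFDerivAt g (e : E →L[ℝ] E) x := he ▸ (hgx.differentiableAt (by simp)).hasFDerivAt
  have hci := hgx.to_localInverse hd (by simp : (∞ : WithTop ℕ∞) ≠ 0)
  refine (hci.congr_of_eventuallyEq ?_).contDiffWithinAt
  have hst := hgx.hasStrictFDerivAt' hd (by simp : (∞ : WithTop ℕ∞) ≠ 0)
  have hback : ∀ᶠ z in 𝓝 (g x), hgx.localInverse hd (by simp) z ∈ Ω := by
    refine hci.continuousAt.preimage_mem_nhds (hΩ.mem_nhds ?_)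
    rw [hgx.localInverse_apply_image]
    exact hx
  filter_upwards [hback, hst.eventually_right_inverse] with z h1 h2
  refine (hbij.injOn ?_ h1 ?_)
  · exact invFunOn_mem ⟨_, h1, h2⟩
  · exact (invFunOn_eq (b := z) ⟨_, h1, h2⟩).trans h2.symm

end Vale.Agent.P073.Cone
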