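import Vale.Agent.P073.Core

/-!
The scalar side of the gluing: a dyadic partition of unity of a bounded open set, the gluing of
mollifications, and the measure-theoretic lemmas for it.
-/

open Set Metric Filter MeasureTheory
open scoped ContDiff Topology ENNReal

set_option linter.unusedSectionVars false

namespace Vale.Agent.P073.Cone

open Vale.Agent.P073

variable {E : Type*} [NormedAddCommGroup E] [NormedSpace ℝ E]

/-- The cut-off of level `k`. -/
noncomputable def cut (δ : E → ℝ) (k : ℕ) (x : E) : ℝ := Real.smoothTransition (2 ^ k * δ x - 1)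

/-- The weight of level `j`. -/
noncomputable def pw (δ : E → ℝ) (j : ℕ) (x : E) : ℝ := cut δ (j + 1) x - cut δ j x

/-- The set of level `j`. -/
def lev (δ : E → ℝ) (j : ℕ) : Set E := {x | 1 / 2 ^ (j + 1) ≤ δ x}

/-- The glued function. -/
noncomputable def glue (δ : E → ℝ) (F : ℕ → E → ℝ) (x : E) : ℝ := ∑' j, pw δ j x * F j x

variable [FiniteDimensional ℝ E] {Ω : Set E} {γ : ℝ} {δ : E → ℝ}

theorem cut_contDiff (hδ : IsRadius Ω γ δ) (k : ℕ) : ContDiff ℝ ∞ (cut δ k) :=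
  Real.smoothTransition.contDiff.comp ((contDiff_const.mul hδ.smooth).sub contDiff_const)

theorem pw_contDiff (hδ : IsRadius Ω γ δ) (j : ℕ) : ContDiff ℝ ∞ (pw δ j) :=
  (cut_contDiff hδ (j + 1)).sub (cut_contDiff hδ j)

omit [FiniteDimensional ℝ E] in
theorem cut_eq_one {k : ℕ} {x : E} (h : 2 ≤ 2 ^ k * δ x) : cut δ k x = 1 :=
  Real.smoothTransition.one_of_one_le (by linarith)

omit [FiniteDimensional ℝ E] in
theorem cut_eq_zero {k : ℕ} {x : E} (h : 2 ^ k * δ x ≤ 1) : cut δ k x = 0 :=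
  Real.smoothTransition.zero_of_nonpos (by linarith)

theorem pw_nonneg (hδ : IsRadius Ω γ δ) (j : ℕ) (x : E) : 0 ≤ pw δ j x := by
  have : (2 : ℝ) ^ j * δ x ≤ 2 ^ (j + 1) * δ x :=
    mul_le_mul_of_nonneg_right (pow_le_pow_right₀ (by norm_num) (by omega)) (hδ.nonneg x)
  exact sub_nonneg.2 (Real.smoothTransition.monotone (by linarith))

omit [FiniteDimensional ℝ E] in
theorem mem_lev_of_le {j N : ℕ} (hjN : j ≤ N) {x : E}
    (h : x ∈ lev δ j) : x ∈ lev δ N := by
  show 1 / 2 ^ (N + 1) ≤ δ x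
  refine le_trans ?_ (show 1 / 2 ^ (j + 1) ≤ δ x from h)
  exact one_div_le_one_div_of_le (by positivity) (pow_le_pow_right₀ (by norm_num) (by omega))

theorem lev_subset (hδ : IsRadius Ω γ δ) (j : ℕ) : lev δ j ⊆ Ω := fun x hx => by
  by_contra h
  have h0 := hδ.zero x h
  have : (0 : ℝ) < 1 / 2 ^ (j + 1) := by positivity
  have h1 : 1 / 2 ^ (j + 1) ≤ δ x := hx
  linarith

theorem isCompact_lev (hδ : IsRadius Ω γ δ) (hbd : Bornology.IsBounded Ω) (j : ℕ) :
    IsCompact (lev δ j) :=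
  hδ.isCompact_ge hbd (by positivity)

theorem isClosed_lev (hδ : IsRadius Ω γ δ) (j : ℕ) : IsClosed (lev δ j) :=
  isClosed_le continuous_const hδ.smooth.continuous

theorem eventually_pw_eq_zero (hδ : IsRadius Ω γ δ) {j : ℕ} {x : E} (h : x ∉ lev δ j) :
    pw δ j =ᶠ[𝓝 x] fun _ => 0 := by
  filter_upwards [(isClosed_lev hδ j).isOpen_compl.mem_nhds h] with y hy
  have hy' : δ y < 1 / 2 ^ (j + 1) := not_le.1 hy
  have h1 : (2 : ℝ) ^ (j + 1) * δ y ≤ 1 := by
    rw [lt_div_iff₀ (by positivity)] at hy'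
    linarith
  have h2 : (2 : ℝ) ^ j * δ y ≤ 1 :=
    le_trans (mul_le_mul_of_nonneg_right (pow_le_pow_right₀ (by norm_num) (by omega))
      (hδ.nonneg y)) h1
  rw [pw, cut_eq_zero h1, cut_eq_zero h2, sub_zero]

theorem pw_eq_zero (hδ : IsRadius Ω γ δ) {j : ℕ} {x : E} (h : x ∉ lev δ j) : pw δ j x = 0 :=
  (eventually_pw_eq_zero hδ h).eq_of_nhds

theorem fderiv_pw_eq_zero (hδ : IsRadius Ω γ δ) {j : ℕ} {x : E} (h : x ∉ lev δ j) :
    fderiv ℝ (pw δ j) x = 0 := by
  rw [(eventually_pw_eq_zero hδ h).fderiv_eq]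
  simp

theorem exists_pw_deriv_bound (hδ : IsRadius Ω γ δ) (hbd : Bornology.IsBounded Ω) (j : ℕ) :
    ∃ M : ℝ, 0 ≤ M ∧ ∀ x, ‖fderiv ℝ (pw δ j) x‖ ≤ M := by
  have hcs : HasCompactSupport (fderiv ℝ (pw δ j)) :=
    HasCompactSupport.intro (isCompact_lev hδ hbd j) fun x hx => fderiv_pw_eq_zero hδ hx
  obtain ⟨M, hM⟩ := hcs.exists_bound_of_continuous ((pw_contDiff hδ j).continuous_fderiv (by simp))
  exact ⟨M, (norm_nonneg _).trans (hM 0), hM⟩

/-- Near a point of `Ω` finitely many weights are nonzero and they add up to one. -/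
theorem exists_finite_nhds (hδ : IsRadius Ω γ δ) (hγ : γ ≤ 1) {x : E} (hx : x ∈ Ω) :
    ∃ N, x ∈ lev δ N ∧ ∀ᶠ y in 𝓝 x, (∀ j ∉ Finset.range (N + 1), pw δ j y = 0) ∧
      ∑ j ∈ Finset.range (N + 1), pw δ j y = 1 := by
  obtain ⟨N, hN⟩ := pow_unbounded_of_one_lt (1 / δ x) (by norm_num : (1 : ℝ) < 2)
  have hδx := hδ.pos x hx
  rw [div_lt_iff₀ hδx] at hN
  refine ⟨N, ?_, ?_⟩
  · show 1 / 2 ^ (N + 1) ≤ δ x
    rw [div_le_iff₀ (by positivity), pow_succ]
    nlinarith
  filter_upwards [(isOpen_lt continuous_const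
    (continuous_const.mul hδ.smooth.continuous)).mem_nhds (show (1 : ℝ) < 2 ^ N * δ x from hN)]
    with y hy
  have hy' : (1 : ℝ) < 2 ^ N * δ y := hy
  have hone : ∀ k, N + 1 ≤ k → cut δ k y = 1 := fun k hk => cut_eq_one <| by
    have : (2 : ℝ) ^ (N + 1) * δ y ≤ 2 ^ k * δ y :=
      mul_le_mul_of_nonneg_right (pow_le_pow_right₀ (by norm_num) hk) (hδ.nonneg y)
    rw [pow_succ] at this
    linarith
  refine ⟨fun j hj => ?_, ?_⟩
  · rw [Finset.mem_range, not_lt] at hj
    rw [pw, hone _ (by omega), hone _ hj, sub_self]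
  · unfold pw
    rw [Finset.sum_range_sub (fun k => cut δ k y), hone _ le_rfl, cut_eq_zero, sub_zero]
    rw [pow_zero, one_mul]
    exact (hδ.le y).trans hγ

/-- The glued function at a point of `Ω`, with the basic estimates. -/
theorem glue_spec (hδ : IsRadius Ω γ δ) (hγ : γ ≤ 1) {F : ℕ → E → ℝ}
    (hF : ∀ j, ContDiffOn ℝ ∞ (F j) Ω) (hΩ : IsOpen Ω) {x : E} (hx : x ∈ Ω) :
    ∃ N, x ∈ lev δ N ∧ (∀ j ∉ Finset.range (N + 1), pw δ j x = 0) ∧
      ∑ j ∈ Finset.range (N + 1), pw δ j x = 1 ∧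
      (∀ c : ℝ, glue δ F x - c = ∑ j ∈ Finset.range (N + 1), pw δ j x * (F j x - c)) ∧
      ContDiffAt ℝ ∞ (glue δ F) x ∧
      ∀ c : ℝ, fderiv ℝ (glue δ F) x = ∑ j ∈ Finset.range (N + 1),
        (pw δ j x • fderiv ℝ (F j) x + (F j x - c) • fderiv ℝ (pw δ j) x) := by
  obtain ⟨N, hNx, hN⟩ := exists_finite_nhds hδ hγ hx
  obtain ⟨h0, h1⟩ := hN.self_of_nhds
  set S := Finset.range (N + 1)
  have hev : glue δ F =ᶠ[𝓝 x] fun y => ∑ j ∈ S, pw δ j y * F j y := by
    filter_upwards [hN] with y hy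
    exact tsum_eq_sum fun j hj => by rw [hy.1 j hj, zero_mul]
  have hd : ∀ j, HasFDerivAt (fun y => pw δ j y * F j y)
      (pw δ j x • fderiv ℝ (F j) x + F j x • fderiv ℝ (pw δ j) x) x := fun j =>
    (((pw_contDiff hδ j).differentiable (by simp)) x).hasFDerivAt.mul
      (((hF j).contDiffAt (hΩ.mem_nhds hx)).differentiableAt (by simp)).hasFDerivAt
  have hzero : ∑ j ∈ S, fderiv ℝ (pw δ j) x = 0 := by
    rw [← fderiv_fun_sum fun j _ => ((pw_contDiff hδ j).differentiable (by simp)) x,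
      Filter.EventuallyEq.fderiv_eq (f₁ := fun y => ∑ j ∈ S, pw δ j y) (f := fun _ => (1 : ℝ))
        (hN.mono fun y hy => hy.2)]
    simp
  refine ⟨N, hNx, h0, h1, fun c => ?_, ?_, fun c => ?_⟩
  · rw [hev.eq_of_nhds, Finset.sum_congr rfl fun j _ => mul_sub (pw δ j x) (F j x) c,
      Finset.sum_sub_distrib, ← Finset.sum_mul, h1, one_mul]
  · exact (ContDiffAt.sum fun j _ => (pw_contDiff hδ j).contDiffAt.mul
      ((hF j).contDiffAt (hΩ.mem_nhds hx))).congr_of_eventuallyEq hev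
  · rw [hev.fderiv_eq, (HasFDerivAt.fun_sum fun j _ => hd j).fderiv]
    have hzero' : ∑ j ∈ Finset.range (N + 1), fderiv ℝ (pw δ j) x = 0 := hzero
    simp only [sub_smul, Finset.sum_add_distrib, Finset.sum_sub_distrib, ← Finset.smul_sum, hzero',
      smul_zero, sub_zero, S]

/-- The radius of level `j`. -/
noncomputable def levRadius (δ : E → ℝ) (a : ℝ) (j : ℕ) (x : E) : ℝ :=
  a * (cut δ (j + 3) x + (1 - cut δ (j + 3) x) * δ x)

theorem levRadius_eventually_eq (hδ : IsRadius Ω γ δ) (a : ℝ) {j : ℕ} {x : E}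
    (h : x ∈ lev δ j) : levRadius δ a j =ᶠ[𝓝 x] fun _ => a := by
  have hx : (1 : ℝ) / 2 ^ (j + 2) < δ x :=
    lt_of_lt_of_le (one_div_lt_one_div_of_lt (by positivity)
      (pow_lt_pow_right₀ (by norm_num) (by omega))) h
  filter_upwards [(isOpen_lt continuous_const hδ.smooth.continuous).mem_nhds hx] with y hy
  have h2 : (2 : ℝ) ≤ 2 ^ (j + 3) * δ y := by
    have := (div_lt_iff₀ (by positivity : (0 : ℝ) < 2 ^ (j + 2))).1 hy
    rw [pow_succ]
    linarith
  simp [levRadius, cut_eq_one h2]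

theorem levRadius_eventually_isRadius (hδ : IsRadius Ω γ δ) (hγ : γ ≤ 1) (hΩ : IsOpen Ω)
    (hbd : Bornology.IsBounded Ω) (j : ℕ) {γ' : ℝ} (hγ' : 0 < γ') :
    ∀ᶠ a in 𝓝[>] (0 : ℝ), IsRadius Ω γ' (levRadius δ a j) := by
  set t := cut δ (j + 3)
  set ψ : E → ℝ := fun x => t x + (1 - t x) * δ x
  have ht : ContDiff ℝ ∞ t := cut_contDiff hδ _
  have hψ : ContDiff ℝ ∞ ψ := ht.add ((contDiff_const.sub ht).mul hδ.smooth)
  have h01 : ∀ x, 0 ≤ t x ∧ t x ≤ 1 := fun x =>
    ⟨Real.smoothTransition.nonneg _, Real.smoothTransition.le_one _⟩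
  have hψ01 : ∀ x, 0 ≤ ψ x ∧ ψ x ≤ 1 := fun x =>
    ⟨by nlinarith [h01 x, hδ.nonneg x], by nlinarith [h01 x, hδ.nonneg x, (hδ.le x).trans hγ]⟩
  have hout : ∀ x ∉ Ω, ψ x = 0 := fun x hx => by
    have : t x = 0 := cut_eq_zero (by rw [hδ.zero x hx]; norm_num)
    simp [ψ, this, hδ.zero x hx]
  have hcs : HasCompactSupport ψ := HasCompactSupport.intro hbd.isCompact_closure fun x hx =>
    hout x fun h => hx (subset_closure h)
  obtain ⟨L, hL⟩ := (hcs.fderiv ℝ).exists_bound_of_continuous (hψ.continuous_fderiv (by simp))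
  have hL0 : 0 ≤ L := (norm_nonneg _).trans (hL 0)
  obtain ⟨d, hd, hdΩ⟩ := (isCompact_lev hδ hbd (j + 3)).exists_cthickening_subset_open hΩ
    (lev_subset hδ _)
  have hpos : (0 : ℝ) < min (min 1 γ') (min (γ' / (L + 1)) (d / 2)) :=
    lt_min (lt_min one_pos hγ') (lt_min (by positivity) (by positivity))
  have hsmall : ∀ᶠ a in 𝓝[>] (0 : ℝ), a < min (min 1 γ') (min (γ' / (L + 1)) (d / 2)) :=
    nhdsWithin_le_nhds (Iio_mem_nhds hpos)
  filter_upwards [hsmall, self_mem_nhdsWithin] with a ha (ha0 : (0 : ℝ) < a)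
  simp only [lt_min_iff] at ha
  refine ⟨contDiff_const.mul hψ, fun x => mul_nonneg ha0.le (hψ01 x).1, fun x hx => ?_,
    fun x hx => ?_, fun x => ?_, fun x => ?_, fun x hx z hz => ?_⟩
  · refine mul_pos ha0 (?_ : 0 < ψ x)
    nlinarith [h01 x, hδ.pos x hx, (hδ.le x).trans hγ]
  · show a * ψ x = 0
    rw [hout x hx, mul_zero]
  · show a * ψ x ≤ γ'
    nlinarith [hψ01 x]
  · show ‖fderiv ℝ (fun y => a * ψ y) x‖ ≤ γ'
    rw [fderiv_const_mul ((hψ.differentiable (by simp)) x), norm_smul, Real.norm_of_nonneg ha0.le]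
    calc a * ‖fderiv ℝ ψ x‖ ≤ γ' / (L + 1) * L :=
          mul_le_mul ha.2.1.le (hL x) (norm_nonneg _) (by positivity)
      _ ≤ γ' := by rw [div_mul_eq_mul_div, div_le_iff₀ (by positivity)]; nlinarith
  · show x + (a * ψ x) • z ∈ Ω
    by_cases hxl : x ∈ lev δ (j + 3)
    · refine hdΩ (mem_cthickening_of_dist_le _ x _ _ hxl ?_)
      rw [dist_eq_norm, add_sub_cancel_left, norm_smul,
        Real.norm_of_nonneg (mul_nonneg ha0.le (hψ01 x).1)]
      calc a * ψ x * ‖z‖ ≤ d / 2 * 1 * 2 := by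
            gcongr <;> linarith [(hψ01 x).1, (hψ01 x).2, ha.2.2]
        _ = d := by ring
    · have h : δ x < 1 / 2 ^ (j + 3 + 1) := not_le.1 hxl
      have ht0 : t x = 0 := cut_eq_zero <| by
        rw [lt_div_iff₀ (by positivity), pow_succ] at h
        nlinarith [hδ.nonneg x, pow_pos (by norm_num : (0 : ℝ) < 2) (j + 3)]
      have := hδ.inside x hx (a • z) (by
        rw [norm_smul, Real.norm_of_nonneg ha0.le]; nlinarith [norm_nonneg z])
      convert this using 2
      simp [ψ, ht0, smul_smul, mul_comm]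

/-- The countable Minkowski inequality. -/
theorem lintegral_tsum_rpow_le {α : Type*} [MeasurableSpace α] {ν : Measure α} {p : ℝ}
    (hp : 1 ≤ p) {b : ℕ → α → ℝ≥0∞} (hb : ∀ j, Measurable (b j)) {s : ℕ → ℝ≥0∞}
    (hs : ∀ j, ∫⁻ x, b j x ^ p ∂ν ≤ s j ^ p) :
    ∫⁻ x, (∑' j, b j x) ^ p ∂ν ≤ (∑' j, s j) ^ p := by
  have hp0 : 0 < p := by linarith
  have hfin : ∀ N, (∫⁻ x, (∑ j ∈ Finset.range N, b j x) ^ p ∂ν) ^ (1 / p) ≤
      ∑ j ∈ Finset.range N, s j := by
    intro N
    induction N with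
    | zero => simp [ENNReal.zero_rpow_of_pos hp0, hp0]
    | succ N ih =>
      simp only [Finset.sum_range_succ]
      refine (ENNReal.lintegral_Lp_add_le (f := fun x => ∑ j ∈ Finset.range N, b j x) (g := b N)
        (Finset.measurable_sum _ fun j _ => hb j).aemeasurable (hb N).aemeasurable hp).trans ?_
      refine add_le_add ih ?_
      rw [one_div]
      exact (ENNReal.rpow_inv_le_iff hp0).2 (hs N)
  have hmono : Monotone fun N : ℕ => fun x => (∑ j ∈ Finset.range N, b j x) ^ p :=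
    fun m n hmn x => ENNReal.rpow_le_rpow
      (Finset.sum_le_sum_of_subset (Finset.range_mono hmn)) hp0.le
  have heq : ∀ x, (∑' j, b j x) ^ p = ⨆ N : ℕ, (∑ j ∈ Finset.range N, b j x) ^ p := fun x => by
    rw [ENNReal.tsum_eq_iSup_nat]
    exact (ENNReal.orderIsoRpow p hp0).map_iSup _
  simp only [heq]
  rw [lintegral_iSup (fun N => (Finset.measurable_sum _ fun j _ => hb j).pow_const p) hmono]
  refine iSup_le fun N => ?_
  have := hfin N
  rw [one_div, ENNReal.rpow_inv_le_iff hp0] at this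
  exact this.trans (ENNReal.rpow_le_rpow (ENNReal.sum_le_tsum _) hp0.le)

variable [MeasurableSpace E] [BorelSpace E] (μ : Measure E) [μ.IsAddHaarMeasure]

/-- Integrability of a rescaled translate for the mollifier. -/
theorem integrable_comp_mollifier {W : Type*} [NormedAddCommGroup W] [NormedSpace ℝ W]
    {h : E → W} (hh : LocallyIntegrable h μ) (x : E) {a : ℝ} (ha : a ≠ 0) :
    Integrable (fun z => h (x + a • z)) (mollMeasure μ) := by
  set K := closedBall x |a|
  have h1 : Integrable (K.indicator h) μ :=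
    (integrable_indicator_iff measurableSet_closedBall).2
      (hh.integrableOn_isCompact (isCompact_closedBall _ _))
  have h2 : Integrable (fun z => K.indicator h (x + a • z)) μ :=
    (h1.comp_add_left x).comp_smul ha
  obtain ⟨C, hC⟩ := ((bump (E := E)).hasCompactSupport_normed (μ := μ)).exists_bound_of_continuous
    (moll_smooth μ).continuous
  rw [mollMeasure, integrable_withDensity_iff_integrable_smul'
    ((moll_smooth μ).continuous.measurable.ennreal_ofReal)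
    (Eventually.of_forall fun _ => ENNReal.ofReal_lt_top)]
  refine (h2.bdd_smul C (moll_smooth μ).continuous.aestronglyMeasurable
    (Eventually.of_forall hC)).congr (Eventually.of_forall fun z => ?_)
  simp only [ENNReal.toReal_ofReal (moll_nonneg μ _)]
  by_cases hz : 1 ≤ ‖z‖
  · simp [moll_eq_zero μ hz]
  · have : x + a • z ∈ K := by
      rw [mem_closedBall, dist_eq_norm, add_sub_cancel_left, norm_smul, Real.norm_eq_abs]
      nlinarith [abs_nonneg a]
    simp [indicator_of_mem this]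

/-- Almost every point of a window lies where an almost sure property holds. -/
theorem ae_mollifier {P : E → Prop} {U : Set E} (hP : ∀ᵐ y ∂μ.restrict U, P y) (hU : IsOpen U)
    {x : E} {a : ℝ} (ha : 0 < a) (hball : closedBall x a ⊆ U) :
    ∀ᵐ z ∂mollMeasure μ, P (x + a • z) := by
  rw [ae_restrict_iff' hU.measurableSet] at hP
  have h0 : μ {y | ¬(y ∈ U → P y)} = 0 := hP
  have hpre : μ ((fun z => x + a • z) ⁻¹' {y | ¬(y ∈ U → P y)}) = 0 := by
    rw [show (fun z => x + a • z) ⁻¹' {y | ¬(y ∈ U → P y)} =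
      (fun z : E => a • z) ⁻¹' ((fun w => x + w) ⁻¹' {y | ¬(y ∈ U → P y)}) from rfl,
      Measure.addHaar_preimage_smul μ ha.ne', measure_preimage_add, h0, mul_zero]
  have hac : mollMeasure μ ≪ μ := withDensity_absolutelyContinuous μ _
  filter_upwards [hac.ae_le (show ∀ᵐ z ∂μ, (x + a • z) ∈ U → P (x + a • z) from hpre),
    mollMeasure_ball μ] with z hz hz1
  refine hz (hball ?_)
  rw [mem_closedBall, dist_eq_norm, add_sub_cancel_left, norm_smul, Real.norm_of_nonneg ha.le]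
  nlinarith

end Vale.Agent.P073.Cone
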