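import Vale.Agent.P073.Line
import Vale.Agent.P073.Cone.Scalar

/-!
Convex sets of uniformly nonsingular matrices: averages, and the injectivity they give to the
derivative of a glued map.
-/

open Set Metric Filter MeasureTheory
open scoped ContDiff Topology ENNReal

namespace Vale.Agent.P073.Cone

open Vale.Agent.P073

/-- `G` takes its values on `U` in a convex set of linear maps with lower bound `c`, in the
coordinates `π`. -/
def ConvexBelow {E ι : Type*} [NormedAddCommGroup E] [NormedSpace ℝ E] [MeasurableSpace E]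
    (μ : Measure E) (π : ι → E →L[ℝ] ℝ) (G : ι → E → E →L[ℝ] ℝ) (U : Set E) (c : ℝ) : Prop :=
  ∃ C : Set (E →L[ℝ] E), Convex ℝ C ∧ (∀ A ∈ C, ∀ v, c * ‖v‖ ≤ ‖A v‖) ∧
    ∀ᵐ y ∂μ.restrict U, ∃ A ∈ C, ∀ i v, π i (A v) = G i y v

/-- `G` takes its values on `U` in a convex set of matrices with lower bound `c`. -/
abbrev ConeOn (G : Fin 3 → E3 → E3 →L[ℝ] ℝ) (U : Set E3) (c : ℝ) : Prop :=
  ConvexBelow volume coord G U c

/-- The rank-one matrix with one row. -/
noncomputable def rowMap (i : Fin 3) : (E3 →L[ℝ] ℝ) →L[ℝ] (E3 →L[ℝ] E3) :=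
  (ContinuousLinearMap.smulRightL ℝ E3 E3).flip (EuclideanSpace.single i (1 : ℝ))

theorem rowMap_apply (i j : Fin 3) (l : E3 →L[ℝ] ℝ) (v : E3) :
    rowMap i l v j = if j = i then l v else 0 := by
  simp [rowMap, ContinuousLinearMap.flip_apply]

/-- The matrix with rows `l i`. -/
noncomputable def mat (l : Fin 3 → E3 →L[ℝ] ℝ) : E3 →L[ℝ] E3 := ∑ i, rowMap i (l i)

theorem mat_apply (l : Fin 3 → E3 →L[ℝ] ℝ) (v : E3) (j : Fin 3) : mat l v j = l j v := by
  simp [mat, rowMap_apply]

theorem norm_le_sum_abs (w : E3) : ‖w‖ ≤ ∑ i, |w i| := by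
  have : w = ∑ i, w i • EuclideanSpace.single i (1 : ℝ) := by
    ext j
    simp [Pi.single_apply]
  conv_lhs => rw [this]
  exact (norm_sum_le _ _).trans (Finset.sum_le_sum fun i _ => by simp [norm_smul])

theorem integrable_mat {α : Type*} [MeasurableSpace α] {ν : Measure α}
    {l : α → Fin 3 → E3 →L[ℝ] ℝ} (hl : ∀ i, Integrable (fun z => l z i) ν) :
    Integrable (fun z => mat (l z)) ν :=
  integrable_finsetSum (μ := ν) Finset.univ (f := fun i z => rowMap i (l z i))
    fun i _ => ContinuousLinearMap.integrable_comp (rowMap i) (hl i)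

theorem integral_mat_apply {α : Type*} [MeasurableSpace α] {ν : Measure α}
    {l : α → Fin 3 → E3 →L[ℝ] ℝ} (hl : ∀ i, Integrable (fun z => l z i) ν) (v : E3) (j : Fin 3) :
    (∫ z, mat (l z) ∂ν) v j = ∫ z, l z j v ∂ν := by
  rw [ContinuousLinearMap.integral_apply (integrable_mat hl) v]
  refine ((coord j).integral_comp_comm
    ((integrable_mat hl).apply_continuousLinearMap v)).symm.trans ?_
  exact integral_congr_ae (Eventually.of_forall fun z => mat_apply (l z) v j)

/-- The averaged matrix lies in the closure of the convex set. -/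
theorem avg_cone {G : Fin 3 → E3 → E3 →L[ℝ] ℝ} (hG : ∀ i, LocallyIntegrable (G i) volume)
    {U : Set E3} (hU : IsOpen U) {C : Set (E3 →L[ℝ] E3)} (hC : Convex ℝ C)
    (hmem : ∀ᵐ y ∂volume.restrict U, ∃ A ∈ C, ∀ i v, A v i = G i y v) {x : E3} {a : ℝ}
    (ha : 0 < a) (hball : closedBall x a ⊆ U) :
    ∃ A ∈ closure C, ∀ i v, A v i = ∫ z, G i (x + a • z) v ∂mollMeasure volume := by
  have hi : ∀ i, Integrable (fun z => G i (x + a • z)) (mollMeasure (volume : Measure E3)) :=
    fun i => integrable_comp_mollifier volume (hG i) x ha.ne'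
  refine ⟨∫ z, mat (fun i => G i (x + a • z)) ∂mollMeasure volume,
    hC.closure.integral_mem isClosed_closure ?_ (integrable_mat hi),
    fun i v => integral_mat_apply hi v i⟩
  filter_upwards [ae_mollifier volume hmem hU ha hball] with z ⟨A, hA, hAG⟩
  have : mat (fun i => G i (x + a • z)) = A := by
    ext w j
    rw [mat_apply, hAG]
  exact subset_closure (this ▸ hA)

/-- A perturbed convex combination of the matrices of one cone is injective. -/
theorem injective_of_cone {C : Set (E3 →L[ℝ] E3)} (hC : Convex ℝ C) {c : ℝ} (hc : 0 < c)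
    (hmar : ∀ A ∈ C, ∀ v, c * ‖v‖ ≤ ‖A v‖) (D : E3 →L[ℝ] E3) (S : Finset ℕ) (w : ℕ → ℝ)
    (hw : ∀ j ∈ S, 0 ≤ w j) (hw1 : ∑ j ∈ S, w j = 1) (A : ℕ → E3 →L[ℝ] E3)
    (hA : ∀ j ∈ S, A j ∈ closure C)
    (hD : ∀ i v, |D v i - ∑ j ∈ S, w j * A j v i| ≤ c / 6 * ‖v‖) :
    Function.Injective D := by
  set B := ∑ j ∈ S, w j • A j
  have hB : B ∈ closure C := hC.closure.sum_mem hw hw1 hA
  refine (injective_iff_map_eq_zero _).2 fun v hv => ?_
  have h1 : c * ‖v‖ ≤ ‖B v‖ := closure_minimal (fun T hT => hmar T hT v)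
    (isClosed_le continuous_const ((ContinuousLinearMap.apply ℝ E3 v).continuous.norm)) hB
  have h2 : ‖B v‖ ≤ c / 2 * ‖v‖ := by
    refine (norm_le_sum_abs _).trans ?_
    calc ∑ i, |B v i| ≤ ∑ _i : Fin 3, c / 6 * ‖v‖ := Finset.sum_le_sum fun i _ => by
          have h := hD i v
          rw [hv] at h
          simpa [B] using h
      _ = c / 2 * ‖v‖ := by simp; ring
  exact norm_eq_zero.1 (by nlinarith [norm_nonneg v])

end Vale.Agent.P073.Cone
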